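import Mathlib

/-!
# P038 (H325): the key inequality, with cardinalities

`R x z` means that `z` lies in the closed out-neighbourhood of `x`.
-/

namespace Vale.Agent.P038.H325

open Finset
open scoped Classical

variable {V : Type*} [Fintype V]

/-- Closed out-neighbourhood of a set. -/
noncomputable def cl (R : V → V → Prop) (X : Finset V) : Finset V :=
  univ.filter fun z => ∃ x ∈ X, R x z

theorem mem_cl {R : V → V → Prop} {X : Finset V} {z : V} : z ∈ cl R X ↔ ∃ x ∈ X, R x z := by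
  simp [cl]

theorem cl_mono {R : V → V → Prop} {X Y : Finset V} (h : X ⊆ Y) : cl R X ⊆ cl R Y := by
  intro z hz
  rw [mem_cl] at hz ⊢
  obtain ⟨x, hx, hxz⟩ := hz
  exact ⟨x, h hx, hxz⟩

/-- `|N[T] ∩ Y| - |T|`. -/
noncomputable def cY (R : V → V → Prop) (Y T : Finset V) : ℤ :=
  ((cl R T ∩ Y).card : ℤ) - (T.card : ℤ)

theorem cY_submod (R : V → V → Prop) (Y S T : Finset V) :
    cY R Y (S ∪ T) + cY R Y (S ∩ T) ≤ cY R Y S + cY R Y T := by
  have h1 : cl R (S ∪ T) ∩ Y = (cl R S ∩ Y) ∪ (cl R T ∩ Y) := by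
    ext z
    simp only [mem_inter, mem_union, mem_cl]
    constructor
    · rintro ⟨⟨x, hx, hxz⟩, hz⟩
      rcases hx with hx | hx
      · exact Or.inl ⟨⟨x, hx, hxz⟩, hz⟩
      · exact Or.inr ⟨⟨x, hx, hxz⟩, hz⟩
    · rintro (⟨⟨x, hx, hxz⟩, hz⟩ | ⟨⟨x, hx, hxz⟩, hz⟩)
      · exact ⟨⟨x, Or.inl hx, hxz⟩, hz⟩
      · exact ⟨⟨x, Or.inr hx, hxz⟩, hz⟩
  have h2 : cl R (S ∩ T) ∩ Y ⊆ (cl R S ∩ Y) ∩ (cl R T ∩ Y) := by
    intro z hz
    obtain ⟨h3, h4⟩ := mem_inter.1 hz
    exact mem_inter.2 ⟨mem_inter.2 ⟨cl_mono inter_subset_left h3, h4⟩,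
      mem_inter.2 ⟨cl_mono inter_subset_right h3, h4⟩⟩
  have h3 := card_union_add_card_inter (cl R S ∩ Y) (cl R T ∩ Y)
  have h4 := card_union_add_card_inter S T
  have h5 := card_le_card h2
  unfold cY
  rw [h1]
  omega

theorem cY_insert (R : V → V → Prop) {Y : Finset V} {y : V} (hy : y ∉ Y) (T : Finset V) :
    cY R (insert y Y) T = cY R Y T + (if y ∈ cl R T then 1 else 0) := by
  unfold cY
  by_cases h : y ∈ cl R T
  · rw [if_pos h, inter_insert_of_mem h, card_insert_of_notMem (fun h1 => hy (mem_inter.1 h1).2)]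
    push_cast
    ring
  · rw [if_neg h, inter_insert_of_notMem h]
    ring

/-- The smallest minimiser on an interval. -/
theorem exists_smallest (R : V → V → Prop) (Y : Finset V) {lo hi : Finset V} (h : lo ⊆ hi) :
    ∃ T, lo ⊆ T ∧ T ⊆ hi ∧ (∀ S, lo ⊆ S → S ⊆ hi → cY R Y T ≤ cY R Y S) ∧
      ∀ S, lo ⊆ S → S ⊆ hi → cY R Y S ≤ cY R Y T → T ⊆ S := by
  set F : Finset (Finset V) := univ.filter fun S => lo ⊆ S ∧ S ⊆ hi with hF
  have hFm : ∀ S, S ∈ F ↔ lo ⊆ S ∧ S ⊆ hi := by
    intro S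
    simp [hF]
  have hne : F.Nonempty := ⟨lo, (hFm lo).2 ⟨Subset.refl _, h⟩⟩
  obtain ⟨T0, hT0, hmin0⟩ := exists_min_image F (cY R Y) hne
  set F' : Finset (Finset V) := F.filter fun S => cY R Y S = cY R Y T0 with hF'
  have hne' : F'.Nonempty := ⟨T0, mem_filter.2 ⟨hT0, rfl⟩⟩
  obtain ⟨T, hT, hmin⟩ := exists_min_image F' (fun S => S.card) hne'
  obtain ⟨hTF, hTv⟩ := mem_filter.1 hT
  obtain ⟨hT1, hT2⟩ := (hFm T).1 hTF
  refine ⟨T, hT1, hT2, ?_, ?_⟩
  · intro S h1 h2
    rw [hTv]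
    exact hmin0 S ((hFm S).2 ⟨h1, h2⟩)
  · intro S h1 h2 h3
    have h4 := cY_submod R Y T S
    have h5 := hmin0 (T ∪ S) ((hFm _).2 ⟨hT1.trans subset_union_left, union_subset hT2 h2⟩)
    have hTS : T ∩ S ∈ F := (hFm _).2 ⟨subset_inter hT1 h1, inter_subset_left.trans hT2⟩
    have h6 := hmin0 (T ∩ S) hTS
    have h7 : cY R Y (T ∩ S) = cY R Y T0 := by
      rw [hTv] at h3 h4
      omega
    have h8 := hmin (T ∩ S) (mem_filter.2 ⟨hTS, h7⟩)
    have h9 : T ∩ S = T := eq_of_subset_of_card_le inter_subset_left h8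
    rw [← h9]
    exact inter_subset_right

variable (R : V → V → Prop) (B Bh : V → Finset V)

/-- Intersection of the rows over the closed in-neighbourhood. -/
noncomputable def meet (R : V → V → Prop) (B : V → Finset V) (z : V) : Finset V :=
  univ.filter fun x => ∀ a, R a z → x ∈ B a

theorem mem_meet {R : V → V → Prop} {B : V → Finset V} {z x : V} :
    x ∈ meet R B z ↔ ∀ a, R a z → x ∈ B a := by
  simp [meet]

/-- The counting step. -/
theorem count_step (T T' : V → Finset V)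
    (hBT : ∀ a, B a ⊆ T a) (hTT : ∀ z a, R a z → T' z ⊆ T a)
    (hC : ∀ x, ∀ S : Finset V, (∀ a ∈ S, x ∈ Bh a ∧ x ∉ B a) →
      S.card ≤ (univ.filter fun z => x ∈ meet R Bh z ∧ ∃ a ∈ S, R a z).card) (y : V) :
    (univ.filter fun a => y ∈ cl R (Bh a) ∧ y ∉ cl R (T a)).card ≤
      (univ.filter fun z => y ∈ cl R (meet R Bh z) ∧ y ∉ cl R (T' z)).card := by
  set L0 := univ.filter fun a => y ∈ cl R (Bh a) ∧ y ∉ cl R (T a) with hL0
  set L1 := univ.filter fun z => y ∈ cl R (meet R Bh z) ∧ y ∉ cl R (T' z) with hL1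
  have e := Fintype.equivFin V
  have hex : ∀ a, ∃ x, a ∈ L0 → (R x y ∧ x ∈ Bh a ∧ ∀ x', R x' y → x' ∈ Bh a → e x ≤ e x') := by
    intro a
    by_cases ha : a ∈ L0
    · have h1 := (mem_filter.1 ha).2.1
      rw [mem_cl] at h1
      obtain ⟨x, hx, hxy⟩ := h1
      obtain ⟨x0, h2, h3⟩ := exists_min_image (univ.filter fun x => R x y ∧ x ∈ Bh a) (fun x => e x)
        ⟨x, mem_filter.2 ⟨mem_univ _, hxy, hx⟩⟩
      obtain ⟨_, h4, h5⟩ := mem_filter.1 h2
      exact ⟨x0, fun _ => ⟨h4, h5, fun x' h6 h7 => h3 x' (mem_filter.2 ⟨mem_univ _, h6, h7⟩)⟩⟩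
    · exact ⟨a, fun h => absurd h ha⟩
  choose xa hxa using hex
  set S : V → Finset V := fun x => L0.filter fun a => xa a = x with hS
  set Z : V → Finset V := fun x => univ.filter fun z => x ∈ meet R Bh z ∧ ∃ a ∈ S x, R a z with hZ
  have hSB : ∀ x, ∀ a ∈ S x, x ∈ Bh a ∧ x ∉ B a ∧ R x y := by
    intro x a ha
    obtain ⟨h1, h2⟩ := mem_filter.1 ha
    obtain ⟨h3, h4, _⟩ := hxa a h1
    rw [h2] at h3 h4
    refine ⟨h4, fun h5 => ?_, h3⟩
    exact (mem_filter.1 h1).2.2 (mem_cl.2 ⟨x, hBT a h5, h3⟩)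
  have hcard : ∀ x, (S x).card ≤ (Z x).card := fun x =>
    hC x (S x) fun a ha => ⟨(hSB x a ha).1, (hSB x a ha).2.1⟩
  have hL0c : L0.card = ∑ x, (S x).card :=
    card_eq_sum_card_fiberwise (fun a _ => mem_univ (xa a))
  have hdisj : ∀ x ∈ (univ : Finset V), ∀ x' ∈ (univ : Finset V), x ≠ x' →
      Disjoint (Z x) (Z x') := by
    have hlt : ∀ x x', e x < e x' → ∀ z, z ∈ Z x → z ∈ Z x' → False := by
      intro x x' hlt z hz hz'
      obtain ⟨_, h1, a1, ha1, _⟩ := mem_filter.1 hz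
      obtain ⟨_, _, a', ha', hr'⟩ := mem_filter.1 hz'
      have h2 : x ∈ Bh a' := mem_meet.1 h1 a' hr'
      obtain ⟨h3, h4⟩ := mem_filter.1 ha'
      have h5 := (hxa a' h3).2.2 x (hSB x a1 ha1).2.2 h2
      rw [h4] at h5
      exact absurd hlt (not_lt.2 h5)
    intro x _ x' _ hne
    rw [disjoint_left]
    intro z hz hz'
    rcases lt_trichotomy (e x) (e x') with h | h | h
    · exact hlt x x' h z hz hz'
    · exact hne (e.injective h)
    · exact hlt x' x h z hz' hz
  have hsub : univ.biUnion Z ⊆ L1 := by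
    intro z hz
    obtain ⟨x, _, hx⟩ := mem_biUnion.1 hz
    obtain ⟨_, h1, a, ha, hr⟩ := mem_filter.1 hx
    refine mem_filter.2 ⟨mem_univ _, mem_cl.2 ⟨x, h1, (hSB x a ha).2.2⟩, fun h2 => ?_⟩
    exact (mem_filter.1 (mem_filter.1 ha).1).2.2 (cl_mono (hTT z a hr) h2)
  calc L0.card = ∑ x, (S x).card := hL0c
    _ ≤ ∑ x, (Z x).card := sum_le_sum fun x _ => hcard x
    _ = (univ.biUnion Z).card := (card_biUnion hdisj).symm
    _ ≤ L1.card := card_le_card hsub

/-- Difference of indicators over a nested family as a cardinality. -/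
theorem ind_diff (F G : V → Finset V) (h : ∀ a, G a ⊆ F a) (y : V) :
    ∑ a, ((if y ∈ cl R (F a) then (1 : ℤ) else 0) - (if y ∈ cl R (G a) then 1 else 0)) =
      ((univ.filter fun a => y ∈ cl R (F a) ∧ y ∉ cl R (G a)).card : ℤ) := by
  rw [card_filter]
  push_cast
  refine sum_congr rfl fun a _ => ?_
  by_cases h1 : y ∈ cl R (F a)
  · by_cases h2 : y ∈ cl R (G a)
    · simp [h1, h2]
    · simp [h1, h2]
  · have h2 : y ∉ cl R (G a) := fun h3 => h1 (cl_mono (h a) h3)
    simp [h1, h2]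

/-- The induction. -/
theorem key_ind (hB : ∀ a, B a ⊆ Bh a)
    (hC : ∀ x, ∀ S : Finset V, (∀ a ∈ S, x ∈ Bh a ∧ x ∉ B a) →
      S.card ≤ (univ.filter fun z => x ∈ meet R Bh z ∧ ∃ a ∈ S, R a z).card)
    (Y : Finset V) :
    ∀ (P : V → Finset V) (p : V → ℤ), (∀ a, B a ⊆ P a ∧ P a ⊆ Bh a) →
      (∀ z T, meet R B z ⊆ T → T ⊆ meet R Bh z → p z ≤ cY R Y T) →
      ∑ a, (cY R Y (Bh a) - cY R Y (P a)) ≤ ∑ z, (cY R Y (meet R Bh z) - p z) := by
  have hIJ : ∀ z, meet R B z ⊆ meet R Bh z := by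
    intro z x hx
    rw [mem_meet] at hx ⊢
    exact fun a ha => hB a (hx a ha)
  induction Y using Finset.induction_on with
  | empty =>
    intro P p hP hp
    have h1 : ∑ a, (cY R ∅ (Bh a) - cY R ∅ (P a)) ≤ 0 := by
      refine sum_nonpos fun a _ => ?_
      have h2 := card_le_card (hP a).2
      unfold cY
      simp only [inter_empty, card_empty]
      omega
    have h3 : 0 ≤ ∑ z, (cY R ∅ (meet R Bh z) - p z) := by
      refine sum_nonneg fun z _ => ?_
      have h4 := hp z (meet R Bh z) (hIJ z) (Subset.refl _)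
      omega
    omega
  | insert y Y hy ih =>
    intro P p hP hp
    have hT := fun a => exists_smallest R Y (hB a)
    choose T hT1 hT2 hT3 hT4 using hT
    have hT' := fun z => exists_smallest R Y (hIJ z)
    choose T' hT'1 hT'2 hT'3 hT'4 using hT'
    have hnest : ∀ z a, R a z → T' z ⊆ T a := by
      intro z a ha
      have hJB : meet R Bh z ⊆ Bh a := fun x hx => mem_meet.1 hx a ha
      have hIB : meet R B z ⊆ B a := fun x hx => mem_meet.1 hx a ha
      have h1 := hT3 a (T' z ∪ T a) ((hT1 a).trans subset_union_right)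
        (union_subset ((hT'2 z).trans hJB) (hT2 a))
      have h2 := cY_submod R Y (T' z) (T a)
      have h3 := hT'4 z (T' z ∩ T a) (subset_inter (hT'1 z) (hIB.trans (hT1 a)))
        (inter_subset_left.trans (hT'2 z)) (by omega)
      exact h3.trans inter_subset_right
    have hIH := ih T (fun z => cY R Y (T' z)) (fun a => ⟨hT1 a, hT2 a⟩)
      (fun z S h1 h2 => hT'3 z S h1 h2)
    have hcount := count_step R B Bh T T' hT1 hnest hC y
    have h1 := ind_diff R Bh T hT2 y
    have h2 := ind_diff R (meet R Bh) T' hT'2 y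
    have hPa : ∀ a, cY R Y (T a) + (if y ∈ cl R (T a) then 1 else 0) ≤
        cY R (insert y Y) (P a) := by
      intro a
      rw [cY_insert R hy]
      have h3 := hT3 a (P a) (hP a).1 (hP a).2
      by_cases h4 : y ∈ cl R (T a)
      · rw [if_pos h4]
        by_cases h5 : cY R Y (P a) ≤ cY R Y (T a)
        · have h6 := hT4 a (P a) (hP a).1 (hP a).2 h5
          rw [if_pos (cl_mono h6 h4)]
          omega
        · split_ifs <;> omega
      · rw [if_neg h4]
        split_ifs <;> omega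
    have hpz : ∀ z, p z ≤ cY R Y (T' z) + (if y ∈ cl R (T' z) then 1 else 0) := by
      intro z
      rw [← cY_insert R hy]
      exact hp z (T' z) (hT'1 z) (hT'2 z)
    have hL : ∑ a, (cY R (insert y Y) (Bh a) - cY R (insert y Y) (P a)) ≤
        ∑ a, (cY R Y (Bh a) - cY R Y (T a)) +
        ∑ a, ((if y ∈ cl R (Bh a) then (1 : ℤ) else 0) - (if y ∈ cl R (T a) then 1 else 0)) := by
      rw [← sum_add_distrib]
      refine sum_le_sum fun a _ => ?_
      have h3 := hPa a
      rw [cY_insert R hy (Bh a)]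
      linarith
    have hRr : ∑ z, (cY R Y (meet R Bh z) - cY R Y (T' z)) +
        ∑ z, ((if y ∈ cl R (meet R Bh z) then (1 : ℤ) else 0) -
          (if y ∈ cl R (T' z) then 1 else 0)) ≤
        ∑ z, (cY R (insert y Y) (meet R Bh z) - p z) := by
      rw [← sum_add_distrib]
      refine sum_le_sum fun z _ => ?_
      have h3 := hpz z
      rw [cY_insert R hy (meet R Bh z)]
      linarith
    have hcount' : ((univ.filter fun a => y ∈ cl R (Bh a) ∧ y ∉ cl R (T a)).card : ℤ) ≤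
      ((univ.filter fun z => y ∈ cl R (meet R Bh z) ∧ y ∉ cl R (T' z)).card : ℤ) := by
      exact_mod_cast hcount
    linarith

/-- The key inequality. -/
theorem key (hB : ∀ a, B a ⊆ Bh a)
    (hR : ∀ a T, B a ⊆ T → T ⊆ Bh a → cY R univ (B a) ≤ cY R univ T)
    (hC : ∀ x, ∀ S : Finset V, (∀ a ∈ S, x ∈ Bh a ∧ x ∉ B a) →
      S.card ≤ (univ.filter fun z => x ∈ meet R Bh z ∧ ∃ a ∈ S, R a z).card) :
    ∑ a, (cY R univ (Bh a) - cY R univ (B a)) ≤
      ∑ z, (cY R univ (meet R Bh z) - cY R univ (meet R B z)) := by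
  refine key_ind R B Bh hB hC univ B _ (fun a => ⟨Subset.refl _, hB a⟩) ?_
  intro z T hT1 hT2
  -- intersect with the rows one after the other
  have hstep : ∀ A : Finset V, (∀ a ∈ A, R a z) →
      cY R univ (T ∩ univ.filter fun x => ∀ a ∈ A, x ∈ B a) ≤ cY R univ T := by
    intro A
    induction A using Finset.induction_on with
    | empty =>
      intro _
      simp
    | insert a A ha ih =>
      intro hA
      have h1 := ih fun a' ha' => hA a' (mem_insert_of_mem ha')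
      set T1 := T ∩ univ.filter fun x => ∀ a ∈ A, x ∈ B a with hT1'
      have h2 : (T ∩ univ.filter fun x => ∀ a' ∈ insert a A, x ∈ B a') = T1 ∩ B a := by
        ext x
        simp only [hT1', mem_inter, mem_filter, mem_univ, true_and, mem_insert, forall_eq_or_imp]
        tauto
      rw [h2]
      have haz : R a z := hA a (mem_insert_self a A)
      have h3 := cY_submod R univ T1 (B a)
      have h4 : T1 ∪ B a ⊆ Bh a := by
        refine union_subset ?_ (hB a)
        intro x hx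
        exact mem_meet.1 (hT2 (mem_inter.1 hx).1) a haz
      have h5 := hR a (T1 ∪ B a) subset_union_right h4
      omega
  have h1 := hstep (univ.filter fun a => R a z) (fun a ha => (mem_filter.1 ha).2)
  have h2 : (T ∩ univ.filter fun x => ∀ a ∈ univ.filter (fun a => R a z), x ∈ B a) =
      meet R B z := by
    ext x
    simp only [mem_inter, mem_filter, mem_univ, true_and, mem_meet]
    exact ⟨fun h => h.2, fun h => ⟨hT1 (mem_meet.2 h), h⟩⟩
  rw [h2] at h1
  exact h1

end Vale.Agent.P038.H325
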